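import Vale.Agent.P237.Quant.EnvelopeBinData.UniformFrom100Low
import Vale.Agent.P237.Quant.EnvelopeBinData.UniformFrom100D
import Vale.Agent.P237.Quant.EnvelopeBinData.UniformFrom100E
import Vale.Agent.P237.Quant.EnvelopeBinData.UniformFrom100F

/-!
The envelope inside the bins of the relative centre `V φ 0 ^ m / mass` on ranges of dimensions in `100 ≤ n ≤ 135`:
`φ t ^ m V ≤ K mass` for `t ≥ Z / √n`. The first five bins are in `UniformFrom100Low`. Generated data, checked by the kernel.
-/

namespace Vale.Agent.P237.Quant

/-- The bins with their nodes. -/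
noncomputable def envUniformFrom100 : List (ℚ × ℚ × List RangeBinNode) := [
  envUniformFrom100Bin0, envUniformFrom100Bin1, envUniformFrom100Bin2, envUniformFrom100Bin3,
  envUniformFrom100Bin4, envUniformFrom100Bin5, envUniformFrom100Bin6, envUniformFrom100Bin7]

theorem envUniformFrom100_check : envUniformDims100.check = true ∧
    (envUniformFrom100.all fun b => b.2.2.all fun N =>
      N.check envUniformDims100 b.1 b.2.1) = true := by
  refine ⟨by decide +kernel, ?_⟩
  simp only [envUniformFrom100, List.all_cons, List.all_nil, Bool.and_true, Bool.and_eq_true]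
  exact ⟨envUniformFrom100Bin0_check, envUniformFrom100Bin1_check, envUniformFrom100Bin2_check, envUniformFrom100Bin3_check, envUniformFrom100Bin4_check, envUniformFrom100Bin5_check, envUniformFrom100Bin6_check, envUniformFrom100Bin7_check⟩

end Vale.Agent.P237.Quant
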