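import Vale.Agent.P237.Quant.EnvelopeBinDefs

/-!
A range of dimensions. Generated data, checked by the kernel.
-/

namespace Vale.Agent.P237.Quant

/-- Dimensions `100` to `135`. -/
def envUniformDims100 : EnvRange := ⟨100, 135, (43 / 500), (1251 / 1000)⟩

end Vale.Agent.P237.Quant
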