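import Vale.Agent.P237.Quant.EnvelopeBinData.UniformFrom100FData

/-!
Half of the nodes of one bin, checked by the kernel.
-/

namespace Vale.Agent.P237.Quant

theorem envUniformFrom100Bin7_checkFst : ((envUniformFrom100Bin7.2.2.take 25).all fun N =>
    N.check envUniformDims100 envUniformFrom100Bin7.1 envUniformFrom100Bin7.2.1) = true := by
  decide +kernel

end Vale.Agent.P237.Quant
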