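import Vale.Agent.P237.Quant.EnvelopeBinData.UniformFrom100A
import Vale.Agent.P237.Quant.EnvelopeBinData.UniformFrom100B
import Vale.Agent.P237.Quant.EnvelopeBinData.UniformFrom100C

/-!
The envelope inside the bins of the relative centre `V φ 0 ^ m / mass` on ranges of dimensions in `100 ≤ n ≤ 135`:
`φ t ^ m V ≤ K mass` for `t ≥ Z / √n`. Generated data, checked by the kernel.
-/
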