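import Vale.Agent.P237.Quant.EnvelopeBinData.UniformFrom135FFst
import Vale.Agent.P237.Quant.EnvelopeBinData.UniformFrom135FSnd

/-!
One bin from the halves of its nodes.
-/

namespace Vale.Agent.P237.Quant

theorem envUniformFrom135Bin7_check : (envUniformFrom135Bin7.2.2.all fun N =>
    N.check envUniformDims135 envUniformFrom135Bin7.1 envUniformFrom135Bin7.2.1) = true := by
  rw [← List.take_append_drop 27 envUniformFrom135Bin7.2.2, List.all_append, envUniformFrom135Bin7_checkFst, envUniformFrom135Bin7_checkSnd]
  rfl

end Vale.Agent.P237.Quant
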