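import Vale.Agent.P237.Quant.EnvelopeBinDefs

/-!
A range of dimensions. Generated data, checked by the kernel.
-/

namespace Vale.Agent.P237.Quant

/-- Dimensions `135` to `210`. -/
def envUniformDims135 : EnvRange := ⟨135, 210, (69 / 1000), (12519 / 10000)⟩

end Vale.Agent.P237.Quant
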