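import Vale.Agent.P237.Quant.EnvelopeBinData.UniformFrom210Low
import Vale.Agent.P237.Quant.EnvelopeBinData.UniformFrom210D
import Vale.Agent.P237.Quant.EnvelopeBinData.UniformFrom210E
import Vale.Agent.P237.Quant.EnvelopeBinData.UniformFrom210F

/-!
The envelope inside the bins of the relative centre `V φ 0 ^ m / mass` on ranges of dimensions in `210 ≤ n ≤ 450`:
`φ t ^ m V ≤ K mass` for `t ≥ Z / √n`. The first five bins are in `UniformFrom210Low`. Generated data, checked by the kernel.
-/

namespace Vale.Agent.P237.Quant

/-- The bins with their nodes. -/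
noncomputable def envUniformFrom210 : List (ℚ × ℚ × List RangeBinNode) := [
  envUniformFrom210Bin0, envUniformFrom210Bin1, envUniformFrom210Bin2, envUniformFrom210Bin3,
  envUniformFrom210Bin4, envUniformFrom210Bin5, envUniformFrom210Bin6, envUniformFrom210Bin7]

theorem envUniformFrom210_check : envUniformDims210.check = true ∧
    (envUniformFrom210.all fun b => b.2.2.all fun N =>
      N.check envUniformDims210 b.1 b.2.1) = true := by
  refine ⟨by decide +kernel, ?_⟩
  simp only [envUniformFrom210, List.all_cons, List.all_nil, Bool.and_true, Bool.and_eq_true]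
  exact ⟨envUniformFrom210Bin0_check, envUniformFrom210Bin1_check, envUniformFrom210Bin2_check, envUniformFrom210Bin3_check, envUniformFrom210Bin4_check, envUniformFrom210Bin5_check, envUniformFrom210Bin6_check, envUniformFrom210Bin7_check⟩

end Vale.Agent.P237.Quant
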