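import Vale.Agent.P237.Quant.EnvelopeBinDefs

/-!
A range of dimensions. Generated data, checked by the kernel.
-/

namespace Vale.Agent.P237.Quant

/-- Dimensions `210` to `450`. -/
def envUniformDims210 : EnvRange := ⟨210, 450, (471 / 10000), (12527 / 10000)⟩

end Vale.Agent.P237.Quant
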