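import Vale.Agent.P237.Quant.EnvelopeBinData.UniformFrom450Low
import Vale.Agent.P237.Quant.EnvelopeBinData.UniformFrom450D
import Vale.Agent.P237.Quant.EnvelopeBinData.UniformFrom450E
import Vale.Agent.P237.Quant.EnvelopeBinData.UniformFrom450F

/-!
The envelope inside the bins of the relative centre `V φ 0 ^ m / mass` on ranges of dimensions in `450 ≤ n`:
`φ t ^ m V ≤ K mass` for `t ≥ Z / √n`. The first five bins are in `UniformFrom450Low`. Generated data, checked by the kernel.
-/

namespace Vale.Agent.P237.Quant

/-- The bins with their nodes. -/
noncomputable def envUniformFrom450 : List (ℚ × ℚ × List RangeBinNode) := [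
  envUniformFrom450Bin0, envUniformFrom450Bin1, envUniformFrom450Bin2, envUniformFrom450Bin3,
  envUniformFrom450Bin4, envUniformFrom450Bin5, envUniformFrom450Bin6, envUniformFrom450Bin7]

theorem envUniformFrom450_check : envUniformDims450.check = true ∧
    (envUniformFrom450.all fun b => b.2.2.all fun N =>
      N.check envUniformDims450 b.1 b.2.1) = true := by
  refine ⟨by decide +kernel, ?_⟩
  simp only [envUniformFrom450, List.all_cons, List.all_nil, Bool.and_true, Bool.and_eq_true]
  exact ⟨envUniformFrom450Bin0_check, envUniformFrom450Bin1_check, envUniformFrom450Bin2_check, envUniformFrom450Bin3_check, envUniformFrom450Bin4_check, envUniformFrom450Bin5_check, envUniformFrom450Bin6_check, envUniformFrom450Bin7_check⟩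

end Vale.Agent.P237.Quant
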