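import Vale.Agent.P237.Quant.EnvelopeBinData.UniformFrom450CFst
import Vale.Agent.P237.Quant.EnvelopeBinData.UniformFrom450CSnd

/-!
One bin from the halves of its nodes.
-/

namespace Vale.Agent.P237.Quant

theorem envUniformFrom450Bin4_check : (envUniformFrom450Bin4.2.2.all fun N =>
    N.check envUniformDims450 envUniformFrom450Bin4.1 envUniformFrom450Bin4.2.1) = true := by
  rw [← List.take_append_drop 25 envUniformFrom450Bin4.2.2, List.all_append, envUniformFrom450Bin4_checkFst, envUniformFrom450Bin4_checkSnd]
  rfl

end Vale.Agent.P237.Quant
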