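import Vale.Agent.P237.Quant.EnvelopeBinDefs

/-!
A range of dimensions. Generated data, checked by the kernel.
-/

namespace Vale.Agent.P237.Quant

/-- Dimensions from `450` on. -/
def envUniformDims450 : EnvRange := ⟨450, 0, 0, (6267 / 5000)⟩

end Vale.Agent.P237.Quant
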